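import Vale.Agent.P105.Param

/-!
The base element of the parameter and numerical bounds.
-/

namespace Vale.Agent.P105.Cert

open Complex (I)

/-- `√(2√2 - 1)`, the difference of the real roots. -/
noncomputable def disc : ℝ := √(2 * √2 - 1)

/-- Real coefficient of the base element. -/
noncomputable def t0 : ℝ := 1 / (2 * √2 * disc)

/-- Unimodular coefficient of the base element. -/
noncomputable def c0 : ℂ := ⟨0, 1 / (4 * √2 * zee.im)⟩

theorem disc_bounds : (1352193449453956679 : ℝ) / 10 ^ 18 ≤ disc ∧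
    disc ≤ 1352193449453956680 / 10 ^ 18 := by
  constructor
  · refine Real.le_sqrt_of_sq_le (le_trans ?_
      (by linarith [sqrt2_bounds.1] : 2 * ((14142135623730950488 : ℝ) / 10 ^ 19) - 1 ≤ 2 * √2 - 1))
    norm_num
  · refine (Real.sqrt_le_left (by norm_num)).2 (le_trans
      (by linarith [sqrt2_bounds.2] : 2 * √2 - 1 ≤ 2 * ((14142135623730950489 : ℝ) / 10 ^ 19) - 1) ?_)
    norm_num

theorem disc_sq : disc * disc = 2 * √2 - 1 := Real.mul_self_sqrt disc_nonneg

theorem salem_eq : salem = (1 + √2 + disc) / 2 := rfl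

theorem inv_salem : salem⁻¹ = (1 + √2 - disc) / 2 := by
  refine inv_eq_of_mul_eq_one_right ?_
  rw [salem_eq]
  linear_combination (1 / 4 : ℝ) * Real.mul_self_sqrt (show (0 : ℝ) ≤ 2 by norm_num)
    - (1 / 4 : ℝ) * disc_sq

theorem t0_bounds : 0 < t0 ∧
    1 / (2 * (14142135623730950489 / 10 ^ 19) * (1352193449453956680 / 10 ^ 18)) ≤ t0 ∧
    t0 ≤ 1 / (2 * (14142135623730950488 / 10 ^ 19) * (1352193449453956679 / 10 ^ 18)) := by
  have h1 := sqrt2_bounds
  have h2 := disc_bounds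
  have p1 : (0 : ℝ) < √2 := by positivity
  have p2 : (0 : ℝ) < disc := lt_of_lt_of_le (by norm_num) h2.1
  refine ⟨by rw [t0]; positivity, ?_, ?_⟩ <;> rw [t0] <;> gcongr
  · exact h1.2
  · exact h2.2
  · exact h1.1
  · exact h2.1

theorem lam_bounds : (53101005645956918 : ℝ) / 10 ^ 17 ≤ salem⁻¹ ∧
    salem⁻¹ ≤ 53101005645956919 / 10 ^ 17 := by
  rw [inv_salem]
  constructor <;>
    linarith [sqrt2_bounds.1, sqrt2_bounds.2, disc_bounds.1, disc_bounds.2]

theorem salem_fine : (1 + 14142135623730950488 / 10 ^ 19 + 1352193449453956679 / 10 ^ 18) / 2 ≤ salem ∧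
    salem ≤ (1 + 14142135623730950489 / 10 ^ 19 + 1352193449453956680 / 10 ^ 18) / 2 := by
  rw [salem_eq]
  constructor <;>
    linarith [sqrt2_bounds.1, sqrt2_bounds.2, disc_bounds.1, disc_bounds.2]

theorem zee_im_ge : (97831 : ℝ) / 100000 ≤ zee.im := by
  refine Real.le_sqrt_of_sq_le ?_
  nlinarith [sqrt2_bounds.1, sqrt2_bounds.2, Real.mul_self_sqrt (show (0 : ℝ) ≤ 2 by norm_num)]

theorem salem_quartic : salem ^ 4 = 2 * salem ^ 3 - salem ^ 2 + 2 * salem - 1 := by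
  linear_combination (salem ^ 2 - (1 - √2) * salem + 1) * salem_quad
    + salem ^ 2 * Real.mul_self_sqrt (show (0 : ℝ) ≤ 2 by norm_num)

theorem zee_quartic : zee ^ 4 = 2 * zee ^ 3 - zee ^ 2 + 2 * zee - 1 := by
  have s2c : ((√2 : ℝ) : ℂ) * ((√2 : ℝ) : ℂ) = 2 := by
    exact_mod_cast Real.mul_self_sqrt (show (0 : ℝ) ≤ 2 by norm_num)
  have hz := zee_quad
  push_cast at hz
  linear_combination (zee ^ 2 - (1 + ((√2 : ℝ) : ℂ)) * zee + 1) * hz + zee ^ 2 * s2c

/-- The base element takes integer values. -/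
theorem base_elem : ∀ n : ℕ, ∃ m : ℤ,
    t0 * salem ^ n + -t0 * salem⁻¹ ^ n + 2 * (c0 * zee ^ n).re = m := by
  set V : ℕ → ℝ := fun n => t0 * salem ^ n + -t0 * salem⁻¹ ^ n + 2 * (c0 * zee ^ n).re with hV
  have hb : salem ≠ 0 := by linarith [one_lt_salem]
  have hl : salem⁻¹ ^ 4 = 2 * salem⁻¹ ^ 3 - salem⁻¹ ^ 2 + 2 * salem⁻¹ - 1 := by
    field_simp
    linear_combination salem_quartic
  have hrec : ∀ n, V (n + 4) = 2 * V (n + 3) - V (n + 2) + 2 * V (n + 1) - V n := by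
    intro n
    have hc : c0 * zee ^ (n + 4) = c0 * zee ^ (n + 3) + c0 * zee ^ (n + 3) - c0 * zee ^ (n + 2)
        + (c0 * zee ^ (n + 1) + c0 * zee ^ (n + 1)) - c0 * zee ^ n := by
      linear_combination c0 * zee ^ n * zee_quartic
    simp only [hV]
    rw [hc]
    simp only [Complex.add_re, Complex.sub_re]
    linear_combination t0 * salem ^ n * salem_quartic - t0 * salem⁻¹ ^ n * hl
  have hs : (0 : ℝ) < √2 := by positivity
  have hd : (0 : ℝ) < disc := lt_of_lt_of_le (by norm_num) disc_bounds.1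
  have hw : (0 : ℝ) < zee.im := lt_of_lt_of_le (by norm_num) zee_im_ge
  have s2 := Real.mul_self_sqrt (show (0 : ℝ) ≤ 2 by norm_num)
  have hre : zee.re = (1 - √2) / 2 := rfl
  have hww : zee.im * zee.im = 1 - zee.re * zee.re := by
    have h := congrArg (· ^ 2) zee_norm
    simp only [Complex.sq_norm, Complex.normSq_apply] at h
    linarith
  have h0 : V 0 = 0 := by simp [hV, c0]
  have h1 : V 1 = 0 := by
    simp only [hV, pow_one, c0, Complex.mul_re, zero_mul, zero_sub]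
    rw [inv_salem, salem_eq, t0]
    field_simp
    ring
  have h2 : V 2 = 1 := by
    simp only [hV, pow_succ, pow_zero, one_mul, c0, Complex.mul_re, Complex.mul_im, zero_mul, zero_sub, hre]
    rw [inv_salem, salem_eq, t0]
    field_simp
    ring1
  have h3 : V 3 = 2 := by
    have hww' : zee.im * zee.im = 1 - ((1 - √2) / 2) * ((1 - √2) / 2) := hre ▸ hww
    simp only [hV, pow_succ, pow_zero, one_mul, c0, Complex.mul_re, Complex.mul_im, zero_mul, zero_sub, hre]
    rw [inv_salem, salem_eq, t0]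
    have e1 : disc ^ 2 = 2 * √2 - 1 := by rw [sq]; exact disc_sq
    field_simp
    grind
  intro n
  suffices h : ∀ n, (∃ m : ℤ, V n = m) ∧ (∃ m : ℤ, V (n + 1) = m) ∧ (∃ m : ℤ, V (n + 2) = m) ∧
      ∃ m : ℤ, V (n + 3) = m from (h n).1
  intro n
  induction n with
  | zero => exact ⟨⟨0, by simpa using h0⟩, ⟨0, by simpa using h1⟩, ⟨1, by simpa using h2⟩, ⟨2, by simpa using h3⟩⟩
  | succ n ih =>
    obtain ⟨⟨a, ha⟩, ⟨b, hb'⟩, ⟨c, hc'⟩, ⟨d, hd'⟩⟩ := ih
    refine ⟨⟨b, hb'⟩, ⟨c, hc'⟩, ⟨d, hd'⟩, ⟨2 * d - c + 2 * b - a, ?_⟩⟩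
    rw [show n + 1 + 3 = n + 4 by omega, hrec, ha, hb', hc', hd']
    push_cast
    ring

end Vale.Agent.P105.Cert
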