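import Vale.Agent.P105.Asymp

/-! From the seed and three powers of the unimodular conjugate to the invariant. -/

namespace Vale.Agent.P105

open Real

/-- The seed of the certificate. -/
def SeedStmt : Prop :=
  ∃ (t ti : ℝ) (c : ℂ),
    State salem zee t ti c (37 / 10000) (1 / 32) 41 (1 / 650) 23 ∧ salem ^ 41 ≤ t ^ 2

/-- Three powers of the conjugate close to one. -/
def PowStmt : Prop :=
  ‖zee ^ 2673 - 1‖ ≤ 283 / 10 ^ 6 ∧ ‖zee ^ 26326094447 - 1‖ ≤ 318 / 10 ^ 13 ∧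
    ‖zee ^ 44357512899934779198276075886946 - 1‖ ≤ 866 / 10 ^ 34

theorem num_step {β : ℝ} {z : ℂ} {t ti : ℝ} {c : ℂ} {D C S : ℝ} {G L w : ℕ}
    (hβ : 15 / 8 ≤ β) (hz : ‖z‖ = 1) (h : State β z t ti c D (1 / 32) G C S)
    (ht : β ^ G ≤ t ^ 2) (hw : G + 2 * w ≤ L) (hw1 : 1 ≤ w) {ρ η C' S' Lm q : ℝ}
    (hρ : ‖z ^ L - 1‖ ≤ ρ) (hρ1 : ρ ≤ 1) (hLm : (L : ℝ) ≤ Lm) (hq : (8 / 15 : ℝ) ^ w ≤ q)
    (hη : 4 * D * S + 4 * (1 / 32) * q * (S + (S + 4 * (Lm * D + 1 / 14))) ≤ η) (hη1 : η < 1)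
    (hC'0 : 0 < C') (hC' : C' ≤ C ^ 2 * (1 - 6 * (2 * Lm * D ^ 2 + 1 / 238)) * (1 - η))
    (hS' : (S + (S + 4 * (Lm * D + 1 / 14))) / (1 - η) ≤ S') :
    ∃ t' ti' c', State β z t' ti' c' (D * ρ) (1 / 32) (G + L) C' S' ∧ β ^ (G + L) ≤ t' ^ 2 := by
  have hb : 0 < β := by linarith
  have hβ1 : 1 < β := by linarith
  have hl : β⁻¹ ≤ 8 / 15 := by
    rw [show (8 / 15 : ℝ) = (15 / 8)⁻¹ by norm_num]
    exact inv_anti₀ (by norm_num) hβ
  have hl0 : 0 < β⁻¹ := by positivity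
  have hD := h.D_nonneg
  have hS := h.S_nonneg
  have hA : (1 / 32 : ℝ) / (1 - β⁻¹) ≤ 1 / 14 := by
    rw [div_le_iff₀ (by linarith)]; linarith
  have hA2 : 2 * (1 / 32 : ℝ) ^ 2 / (1 - β⁻¹) ≤ 1 / 238 := by
    rw [div_le_iff₀ (by linarith)]; linarith
  have hA0 : 0 ≤ (1 / 32 : ℝ) / (1 - β⁻¹) := div_nonneg (by norm_num) (by linarith)
  have hLD : (L : ℝ) * D ≤ Lm * D := mul_le_mul_of_nonneg_right hLm hD
  have hsum : S + (S + 4 * (L * D + 1 / 32 / (1 - β⁻¹))) ≤ S + (S + 4 * (Lm * D + 1 / 14)) := by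
    linarith
  have hsum0 : 0 ≤ S + (S + 4 * (L * D + 1 / 32 / (1 - β⁻¹))) := by
    have := mul_nonneg (Nat.cast_nonneg (α := ℝ) L) hD
    linarith
  have hlw : β⁻¹ ^ w ≤ q := (pow_le_pow_left₀ hl0.le hl w).trans hq
  have hη' : 4 * D * S + 4 * (1 / 32) * β⁻¹ ^ w * (S + (S + 4 * (L * D + 1 / 32 / (1 - β⁻¹)))) ≤ η := by
    refine le_trans ?_ hη
    have hq0 : 0 ≤ q := le_trans (by positivity) hlw
    gcongr
  have hst := h.step hβ1 hz hw hρ hη' hη1 (by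
    have : D * ρ ≤ D * 1 := mul_le_mul_of_nonneg_left hρ1 hD
    linarith [h.small])
  refine ⟨_, _, _, hst.mono ?_ hC'0 ?_, ?_⟩
  · refine hC'.trans ?_
    have hLD2 : (L : ℝ) * D ^ 2 ≤ Lm * D ^ 2 := mul_le_mul_of_nonneg_right hLm (sq_nonneg D)
    gcongr
    refine le_trans ?_ (add_one_le_exp _)
    linarith
  · exact (div_le_div_of_nonneg_right hsum (by linarith)).trans hS'
  · have hw3 : 3 ≤ L ∨ L ≤ 2 := by omega
    have h4 : 2 ≤ β ^ L := by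
      refine le_trans ?_ (pow_le_pow_right₀ hβ1.le (show 2 ≤ L by omega))
      calc (2 : ℝ) ≤ (15 / 8) ^ 2 := by norm_num
        _ ≤ β ^ 2 := by gcongr
    rw [pow_add, mul_pow]
    rcases hw3 with h3 | h3
    · have h6 : 4 ≤ β ^ L := by
        refine le_trans ?_ (pow_le_pow_right₀ hβ1.le h3)
        calc (4 : ℝ) ≤ (15 / 8) ^ 3 := by norm_num
          _ ≤ β ^ 3 := by gcongr
      refine mul_le_mul ht ?_ (by positivity) (sq_nonneg t)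
      nlinarith
    · have hG : G = 0 := by omega
      subst hG
      have h7 : (15 / 8 : ℝ) ^ 2 ≤ β ^ L := by
        refine le_trans (pow_le_pow_left₀ (by norm_num) hβ 2) ?_
        exact pow_le_pow_right₀ hβ1.le (by omega)
      have h8 : β ^ L ≤ (β ^ L - 1) ^ 2 := by nlinarith
      exact mul_le_mul ht h8 (by positivity) (sq_nonneg t)

theorem eight_fifteenths_pow : (8 / 15 : ℝ) ^ 1000 ≤ 1 / (10 ^ 120 * 10 ^ 120) := by
  rw [show 1000 = 250 * 4 by norm_num, pow_mul]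
  refine (pow_le_pow_left₀ (by positivity) (show (8 / 15 : ℝ) ^ 250 ≤ 1 / 10 ^ 68 by norm_num) 4).trans ?_
  norm_num

theorem chain {β : ℝ} {z : ℂ} {t ti : ℝ} {c : ℂ} (hβ : 15 / 8 ≤ β) (hz : ‖z‖ = 1)
    (h : State β z t ti c (37 / 10000) (1 / 32) 41 (1 / 650) 23) (ht : β ^ 41 ≤ t ^ 2)
    {L1 L2 L3 : ℕ} (h1 : (L1 : ℝ) ≤ 2673) (h1' : 2000 ≤ L1)
    (h2 : (L2 : ℝ) ≤ 263261 * 10 ^ 5) (h2' : 100000 ≤ L2)
    (h3 : (L3 : ℝ) ≤ 443576 * 10 ^ 26) (h3' : L1 + L2 + 100000 ≤ L3)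
    (p1 : ‖z ^ L1 - 1‖ ≤ 283 / 10 ^ 6) (p2 : ‖z ^ L2 - 1‖ ≤ 318 / 10 ^ 13)
    (p3 : ‖z ^ L3 - 1‖ ≤ 866 / 10 ^ 34) (h23 : L1 + 1000 ≤ L2) :
    ∃ t G D C, Inv β z t G D C eps0 := by
  obtain ⟨t1, ti1, c1, s1, ht1⟩ := num_step (w := 25) (η := 343 / 1000) (C' := 8 / 10 ^ 7)
    (S' := 131) (q := 2 / 10 ^ 7) hβ hz h ht (by omega) le_add_self p1 (by norm_num) h1
    (by norm_num) (by norm_num) (by norm_num) (by norm_num) (by norm_num) (by norm_num)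
  obtain ⟨t2, ti2, c2, s2, ht2⟩ := num_step (w := 100) (η := 1 / 1000) (C' := 4 / 10 ^ 13)
    (S' := 110700) (q := 1 / 10 ^ 20) hβ hz s1 ht1 (by omega) le_add_self p2 (by norm_num) h2
    (by norm_num) (by norm_num) (by norm_num) (by norm_num) (by norm_num) (by norm_num)
  obtain ⟨t3, ti3, c3, s3, ht3⟩ := num_step (w := 1000) (η := 1 / 1000) (C' := 5 / 10 ^ 26)
    (S' := 6 * 10 ^ 15) (q := 1 / 10 ^ 100) hβ hz s2 ht2 (by omega) le_add_self p3 (by norm_num) h3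
    (eight_fifteenths_pow.trans (by norm_num)) (by norm_num) (by norm_num) (by norm_num) (by norm_num) (by norm_num)
  have hG : 1000 ≤ 41 + L1 + L2 + L3 := by omega
  have hl0 : 0 ≤ β⁻¹ := inv_nonneg.mpr (by linarith)
  have hl : β⁻¹ ≤ 8 / 15 := by
    rw [show (8 / 15 : ℝ) = (15 / 8)⁻¹ by norm_num]
    exact inv_anti₀ (by norm_num) hβ
  have hlG : β⁻¹ ^ (41 + L1 + L2 + L3) ≤ (1 / (10 ^ 120 * 10 ^ 120) : ℝ) :=
    ((pow_le_pow_of_le_one hl0 (hl.trans (by norm_num)) hG).trans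
      (pow_le_pow_left₀ hl0 hl 1000)).trans eight_fifteenths_pow
  refine ⟨t3, _, _, _, ti3, c3, _, s3, by omega, by norm_num, ?_, by norm_num [eps0], ?_, ?_, ht3⟩
  · have hs : √((41 + L1 + L2 + L3 : ℕ) : ℝ) ≤ 67 * 10 ^ 14 := by
      rw [Real.sqrt_le_iff]
      refine ⟨by norm_num, ?_⟩
      have : (L1 : ℝ) ≤ 10 ^ 30 := h1.trans (by norm_num)
      have : (L2 : ℝ) ≤ 10 ^ 30 := h2.trans (by norm_num)
      push_cast
      linarith
    refine le_trans (mul_le_mul_of_nonneg_left hs (by norm_num)) ?_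
    norm_num [eps0]
  · exact hlG.trans (by norm_num)
  · exact hlG.trans (by norm_num)

theorem initStmt_of (hseed : SeedStmt) (hpow : PowStmt) (hz : ‖zee‖ = 1)
    (hβ : 15 / 8 ≤ salem) : InitStmt := by
  obtain ⟨t, ti, c, hst, ht⟩ := hseed
  obtain ⟨p1, p2, p3⟩ := hpow
  exact chain hβ hz hst ht (by norm_num) (by norm_num) (by norm_num) (by norm_num) (by norm_num)
    (by norm_num) p1 p2 p3 (by norm_num)

end Vale.Agent.P105
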