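import Vale.Agent.P105.Param

/-!
A fixed-point checker, with tracked error, for powers of a complex number of modulus at most `1`.
-/

namespace Vale.Agent.P105.Cert

/-- An approximation `(re + im·i) / S` with error `err / S`. -/
structure FP where
  re : ℤ
  im : ℤ
  err : ℕ

/-- Soundness of an approximation. -/
def FP.Ok (S : ℕ) (x : FP) (w : ℂ) : Prop :=
  ‖w * (S : ℂ) - ((x.re : ℂ) + (x.im : ℂ) * Complex.I)‖ ≤ (x.err : ℝ)

/-- Product of approximations. -/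
def FP.mul (S : ℕ) (x y : FP) : FP :=
  ⟨(x.re * y.re - x.im * y.im) / (S : ℤ), (x.re * y.im + x.im * y.re) / (S : ℤ),
    x.err + y.err + x.err * y.err / S + 3⟩

variable {S : ℕ}

theorem ediv_err (hS0 : 0 < S) (n : ℤ) :
    |(n : ℝ) / (S : ℝ) - ((n / (S : ℤ) : ℤ) : ℝ)| ≤ 1 := by
  have hS : (0 : ℝ) < (S : ℝ) := by exact_mod_cast hS0
  have h := Int.emod_add_mul_ediv n (S : ℤ)
  have h0 := Int.emod_nonneg n (show (S : ℤ) ≠ 0 by omega)
  have h1 := Int.emod_lt_of_pos n (show (0 : ℤ) < (S : ℤ) by omega)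
  have e : (n : ℝ) / (S : ℝ) - ((n / (S : ℤ) : ℤ) : ℝ) =
      ((n % (S : ℤ) : ℤ) : ℝ) / (S : ℝ) := by
    have : ((n % (S : ℤ) : ℤ) : ℝ) + (S : ℝ) * ((n / (S : ℤ) : ℤ) : ℝ) = (n : ℝ) := by
      exact_mod_cast h
    field_simp
    linarith
  rw [e, abs_div, abs_of_pos hS, div_le_one hS]
  have a0 : (0 : ℝ) ≤ ((n % (S : ℤ) : ℤ) : ℝ) := by exact_mod_cast h0
  have a1 : ((n % (S : ℤ) : ℤ) : ℝ) < (S : ℝ) := by exact_mod_cast h1
  rw [abs_of_nonneg a0]
  exact a1.le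

theorem FP.mul_ok (hS0 : 0 < S) {x y : FP} {u v : ℂ} (hu : ‖u‖ ≤ 1) (hv : ‖v‖ ≤ 1) (hx : FP.Ok S x u) (hy : FP.Ok S y v) :
    FP.Ok S (FP.mul S x y) (u * v) := by
  have hS : (0 : ℝ) < (S : ℝ) := by exact_mod_cast hS0
  have hS' : (S : ℂ) ≠ 0 := by exact_mod_cast hS.ne'
  set X : ℂ := (x.re : ℂ) + (x.im : ℂ) * Complex.I with hX
  set Y : ℂ := (y.re : ℂ) + (y.im : ℂ) * Complex.I with hY
  have hY1 : ‖Y‖ ≤ (S : ℝ) + y.err := by
    calc ‖Y‖ = ‖v * (S : ℂ) - (v * (S : ℂ) - Y)‖ := by rw [sub_sub_cancel]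
      _ ≤ ‖v * (S : ℂ)‖ + ‖v * (S : ℂ) - Y‖ := norm_sub_le _ _
      _ ≤ _ := by
          refine add_le_add ?_ hy
          rw [norm_mul, Complex.norm_natCast]
          exact mul_le_of_le_one_left hS.le hv
  have h1 : ‖u * v * (S : ℂ) - X * Y / (S : ℂ)‖ ≤
      (x.err : ℝ) + y.err + (x.err : ℝ) * y.err / (S : ℝ) := by
    have e : u * v * (S : ℂ) - X * Y / (S : ℂ) =
        u * (v * (S : ℂ) - Y) + (u * (S : ℂ) - X) * Y / (S : ℂ) := by
      field_simp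
      ring
    rw [e]
    refine (norm_add_le _ _).trans ?_
    rw [norm_mul, norm_div, norm_mul, Complex.norm_natCast]
    have a1 : ‖u‖ * ‖v * (S : ℂ) - Y‖ ≤ 1 * (y.err : ℝ) :=
      mul_le_mul hu hy (norm_nonneg _) zero_le_one
    have a2 : ‖u * (S : ℂ) - X‖ * ‖Y‖ / (S : ℝ) ≤
        (x.err : ℝ) * ((S : ℝ) + y.err) / (S : ℝ) := by
      gcongr
      exact hx
    have a3 : (x.err : ℝ) * ((S : ℝ) + y.err) / (S : ℝ) =
        (x.err : ℝ) + (x.err : ℝ) * y.err / (S : ℝ) := by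
      field_simp
    linarith
  have h2 : ‖X * Y / (S : ℂ) -
      (((FP.mul S x y).re : ℂ) + ((FP.mul S x y).im : ℂ) * Complex.I)‖ ≤ 2 := by
    refine (Complex.norm_le_abs_re_add_abs_im _).trans ?_
    have a1 := ediv_err hS0 (x.re * y.re - x.im * y.im)
    have a2 := ediv_err hS0 (x.re * y.im + x.im * y.re)
    push_cast at a1 a2
    simp only [hX, hY, FP.mul, ← Complex.ofReal_natCast, Complex.div_ofReal_re,
      Complex.div_ofReal_im, Complex.sub_re, Complex.sub_im, Complex.add_re, Complex.add_im,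
      Complex.mul_re, Complex.mul_im, Complex.intCast_re, Complex.intCast_im, Complex.I_re,
      Complex.I_im, mul_zero, mul_one, add_zero, zero_add, sub_zero]
    linarith
  show ‖_‖ ≤ ((x.err + y.err + x.err * y.err / S + 3 : ℕ) : ℝ)
  calc ‖u * v * (S : ℂ) - (((FP.mul S x y).re : ℂ) + ((FP.mul S x y).im : ℂ) * Complex.I)‖
      ≤ ‖u * v * (S : ℂ) - X * Y / (S : ℂ)‖ + ‖X * Y / (S : ℂ) -
        (((FP.mul S x y).re : ℂ) + ((FP.mul S x y).im : ℂ) * Complex.I)‖ := norm_sub_le_norm_sub_add_norm_sub _ _ _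
    _ ≤ (x.err : ℝ) + y.err + (x.err : ℝ) * y.err / (S : ℝ) + 2 := add_le_add h1 h2
    _ ≤ _ := by
      have : (x.err : ℝ) * y.err / (S : ℝ) ≤ ((x.err * y.err / S : ℕ) : ℝ) + 1 := by
        rw [← Nat.cast_mul, div_le_iff₀ hS]
        exact_mod_cast (Nat.lt_mul_div_succ (x.err * y.err) (hS0 : 0 < S)).le.trans_eq
          (mul_comm _ _)
      push_cast
      linarith

/-- One squaring, and a multiplication if the bit is set. -/
def FP.step (S : ℕ) (x : FP) (b : ℕ) (h : FP) : FP :=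
  if b = 0 then FP.mul S h h else FP.mul S (FP.mul S h h) x

/-- Binary powering, `f` squarings. -/
def FP.pow (S : ℕ) (x : FP) : ℕ → ℕ → FP
  | 0, _ => ⟨(S : ℤ), 0, 0⟩
  | f + 1, n => FP.step S x (n % 2) (FP.pow S x f (n / 2))

theorem FP.pow_ok (hS0 : 0 < S) {x : FP} {w : ℂ} (hw : ‖w‖ ≤ 1) (hx : FP.Ok S x w) :
    ∀ f n, n < 2 ^ f → FP.Ok S (FP.pow S x f n) (w ^ n) := by
  have hp : ∀ k, ‖w ^ k‖ ≤ 1 := fun k => by
    rw [norm_pow]; exact pow_le_one₀ (norm_nonneg _) hw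
  intro f
  induction f with
  | zero =>
    intro n hn
    obtain rfl : n = 0 := by simpa using hn
    simp [FP.pow, FP.Ok]
  | succ f ih =>
    intro n hn
    have hd : n / 2 < 2 ^ f := by rw [pow_succ] at hn; omega
    have h := ih _ hd
    rw [FP.pow, FP.step]
    split_ifs with hb
    · conv_rhs => rw [show n = n / 2 + n / 2 by omega, pow_add]
      exact FP.mul_ok hS0 (hp _) (hp _) h h
    · conv_rhs => rw [show n = n / 2 + n / 2 + 1 by omega, pow_add, pow_add, pow_one]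
      exact FP.mul_ok hS0 (by rw [← pow_add]; exact hp _) hw (FP.mul_ok hS0 (hp _) (hp _) h h) hx

/-- Decidable test for `‖w + s‖ ≤ p / q`, with `s` an integer. -/
def FP.near (S : ℕ) (x : FP) (s : ℤ) (p q : ℕ) : Bool :=
  decide (x.err * q ≤ p * S ∧
    ((x.re + s * S) ^ 2 + x.im ^ 2) * (q : ℤ) ^ 2 ≤
      ((p : ℤ) * S - (x.err : ℤ) * q) ^ 2)

theorem FP.near_ok (hS0 : 0 < S) {x : FP} {w : ℂ} {s : ℤ} {p q : ℕ} (hx : FP.Ok S x w) (h : FP.near S x s p q = true)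
    (hq : 0 < q) : ‖w + (s : ℂ)‖ ≤ (p : ℝ) / q := by
  simp only [FP.near, decide_eq_true_eq] at h
  have hS : (0 : ℝ) < (S : ℝ) := by exact_mod_cast hS0
  have hq' : (0 : ℝ) < (q : ℝ) := by exact_mod_cast hq
  set V : ℂ := ((x.re + s * S : ℤ) : ℂ) + (x.im : ℂ) * Complex.I with hV
  have h1 : ‖(w + (s : ℂ)) * (S : ℂ)‖ ≤ (x.err : ℝ) + ‖V‖ := by
    have e : (w + (s : ℂ)) * (S : ℂ) =
        (w * (S : ℂ) - ((x.re : ℂ) + (x.im : ℂ) * Complex.I)) + V := by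
      rw [hV]; push_cast; ring
    rw [e]
    exact (norm_add_le _ _).trans (add_le_add hx le_rfl)
  have h2 : ‖V‖ * q ≤ (p : ℝ) * S - (x.err : ℝ) * q := by
    have hE : (x.err : ℝ) * q ≤ (p : ℝ) * S := by exact_mod_cast h.1
    have hn : ‖V‖ ^ 2 * (q : ℝ) ^ 2 ≤ ((p : ℝ) * S - (x.err : ℝ) * q) ^ 2 := by
      rw [Complex.sq_norm, Complex.normSq_apply, hV]
      simp only [Complex.add_re, Complex.add_im, Complex.mul_re, Complex.mul_im, Complex.intCast_re,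
        Complex.intCast_im, Complex.I_re, Complex.I_im, mul_zero, mul_one, zero_mul, add_zero,
        zero_add, sub_zero]
      have hh : (((x.re + s * S : ℤ) : ℝ) ^ 2 + (x.im : ℝ) ^ 2) * (q : ℝ) ^ 2 ≤
          ((p : ℝ) * S - (x.err : ℝ) * q) ^ 2 := by exact_mod_cast h.2
      linarith
    rw [← mul_pow] at hn
    exact (abs_le_of_sq_le_sq' hn (by linarith)).2
  rw [norm_mul, Complex.norm_natCast] at h1
  rw [le_div_iff₀ hq']
  nlinarith [mul_le_mul_of_nonneg_right h1 hq'.le]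

end Vale.Agent.P105.Cert
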