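import Vale.Agent.P105.Cert.Fixed

/-!
Certified distances to `±1` of the powers of `zee` used in the certificate.
-/

namespace Vale.Agent.P105.Cert

theorem zee_ok {S s I : ℕ} (hS0 : 0 < S) (h1 : s * s ≤ 2 * S * S)
    (h2 : 2 * S * S ≤ (s + 1) * (s + 1)) (h3 : 4 * I * I ≤ S * S + 2 * S * s)
    (h4 : S * S + 2 * S * (s + 1) ≤ 4 * (I + 1) * (I + 1)) :
    FP.Ok S ⟨((S : ℤ) - s) / 2, (I : ℤ), 3⟩ zee := by
  have hS : (0 : ℝ) < (S : ℝ) := by exact_mod_cast hS0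
  have g1 : (s : ℝ) * s ≤ 2 * S * S := by exact_mod_cast h1
  have g2 : 2 * (S : ℝ) * S ≤ ((s : ℝ) + 1) * ((s : ℝ) + 1) := by exact_mod_cast h2
  have g3 : 4 * (I : ℝ) * I ≤ (S : ℝ) * S + 2 * S * s := by exact_mod_cast h3
  have g4 : (S : ℝ) * S + 2 * S * ((s : ℝ) + 1) ≤ 4 * ((I : ℝ) + 1) * ((I : ℝ) + 1) := by
    exact_mod_cast h4
  have s2 := Real.mul_self_sqrt (show (0 : ℝ) ≤ 2 by norm_num)
  have hr0 : 0 ≤ √2 := Real.sqrt_nonneg _
  have ha : (s : ℝ) ≤ √2 * S ∧ √2 * S ≤ (s : ℝ) + 1 := by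
    constructor
    · nlinarith [mul_nonneg hr0 hS.le, Nat.cast_nonneg (α := ℝ) s]
    · nlinarith [mul_nonneg hr0 hS.le, Nat.cast_nonneg (α := ℝ) s]
  have hq : (0 : ℝ) ≤ 1 - ((1 - √2) / 2) ^ 2 := by nlinarith [sqrt2_bounds.1, sqrt2_bounds.2]
  set w := √(1 - ((1 - √2) / 2) ^ 2) with hw
  have hw2 : w * w = 1 - ((1 - √2) / 2) ^ 2 := Real.mul_self_sqrt hq
  have hw0 : 0 ≤ w := Real.sqrt_nonneg _
  have e : 4 * ((w * S) * (w * S)) = (S : ℝ) * S + 2 * S * (√2 * S) := by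
    linear_combination 4 * (S : ℝ) ^ 2 * hw2 - (S : ℝ) ^ 2 * s2
  have hb : (I : ℝ) ≤ w * S ∧ w * S ≤ (I : ℝ) + 1 := by
    constructor
    · nlinarith [mul_nonneg hw0 hS.le, Nat.cast_nonneg (α := ℝ) I, mul_le_mul_of_nonneg_left ha.1 hS.le]
    · nlinarith [mul_nonneg hw0 hS.le, Nat.cast_nonneg (α := ℝ) I, mul_le_mul_of_nonneg_left ha.2 hS.le]
  have h5 := Int.emod_add_mul_ediv ((S : ℤ) - s) 2
  have h6 := Int.emod_nonneg ((S : ℤ) - s) (show (2 : ℤ) ≠ 0 by norm_num)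
  have h7 := Int.emod_lt_of_pos ((S : ℤ) - s) (show (0 : ℤ) < 2 by norm_num)
  set q : ℤ := ((S : ℤ) - s) / 2
  have hr1 : 2 * (q : ℝ) ≤ (S : ℝ) - s := by
    exact_mod_cast (show 2 * q ≤ (S : ℤ) - s by omega)
  have hr2 : (S : ℝ) - s ≤ 2 * (q : ℝ) + 1 := by
    exact_mod_cast (show (S : ℤ) - s ≤ 2 * q + 1 by omega)
  show ‖zee * (S : ℂ) - ((q : ℂ) + ((I : ℤ) : ℂ) * Complex.I)‖ ≤ ((3 : ℕ) : ℝ)
  refine (Complex.norm_le_abs_re_add_abs_im _).trans ?_
  simp only [zee, ← hw, Complex.sub_re, Complex.sub_im, Complex.add_re, Complex.add_im,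
    Complex.mul_re, Complex.mul_im, Complex.intCast_re, Complex.intCast_im, Complex.natCast_re,
    Complex.natCast_im, Complex.I_re, Complex.I_im, mul_zero, mul_one, add_zero, zero_add, sub_zero,
    Int.cast_natCast]
  have k1 : |(1 - √2) / 2 * (S : ℝ) - (q : ℝ)| ≤ 1 := by
    rw [abs_le]; constructor <;> linarith [ha.1, ha.2]
  have k2 : |w * (S : ℝ) - (I : ℝ)| ≤ 1 := by
    rw [abs_le]; constructor <;> linarith [hb.1, hb.2]
  push_cast
  linarith

/-- The scale of the certificate. -/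
def scale : ℕ := 2 ^ 256

/-- `⌊√2 · scale⌋`. -/
def rootTwo : ℕ :=
  163754743014928255235102403085959256615014864942486474123643707201513509564970

/-- `⌊Im zee · scale⌋`. -/
def imZee : ℕ :=
  113281524930567676401360173889331838970323054834013447409223098750023480171460

theorem zee_power {S s I f L p q : ℕ} {k : ℤ} (hS0 : 0 < S) (h1 : s * s ≤ 2 * S * S)
    (h2 : 2 * S * S ≤ (s + 1) * (s + 1)) (h3 : 4 * I * I ≤ S * S + 2 * S * s)
    (h4 : S * S + 2 * S * (s + 1) ≤ 4 * (I + 1) * (I + 1)) (hL : L < 2 ^ f) (hq : 0 < q)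
    (h : FP.near S (FP.pow S ⟨((S : ℤ) - s) / 2, (I : ℤ), 3⟩ f L) k p q = true) :
    ‖zee ^ L + (k : ℂ)‖ ≤ (p : ℝ) / q :=
  FP.near_ok hS0 (FP.pow_ok hS0 zee_norm.le (zee_ok hS0 h1 h2 h3 h4) f L hL) h hq

theorem zee_pow_30 : ‖zee ^ 30 + ((1 : ℤ) : ℂ)‖ ≤ ((2469 : ℕ) : ℝ) / (100000 : ℕ) :=
  zee_power (S := scale) (s := rootTwo) (I := imZee) (f := 5) (by decide +kernel)
    (by decide +kernel) (by decide +kernel) (by decide +kernel) (by decide +kernel)
    (by decide +kernel) (by decide +kernel) (by decide +kernel)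

theorem zee_pow_L1 : ‖zee ^ 2673 + ((-1 : ℤ) : ℂ)‖ ≤ ((283 : ℕ) : ℝ) / (1000000 : ℕ) :=
  zee_power (S := scale) (s := rootTwo) (I := imZee) (f := 12) (by decide +kernel)
    (by decide +kernel) (by decide +kernel) (by decide +kernel) (by decide +kernel)
    (by decide +kernel) (by decide +kernel) (by decide +kernel)

theorem zee_pow_L2 : ‖zee ^ 26326094447 + ((-1 : ℤ) : ℂ)‖ ≤
    ((318 : ℕ) : ℝ) / (10000000000000 : ℕ) :=
  zee_power (S := scale) (s := rootTwo) (I := imZee) (f := 35) (by decide +kernel)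
    (by decide +kernel) (by decide +kernel) (by decide +kernel) (by decide +kernel)
    (by decide +kernel) (by decide +kernel) (by decide +kernel)

theorem zee_pow_L3 : ‖zee ^ 44357512899934779198276075886946 + ((-1 : ℤ) : ℂ)‖ ≤
    ((866 : ℕ) : ℝ) / (10000000000000000000000000000000000 : ℕ) :=
  zee_power (S := scale) (s := rootTwo) (I := imZee) (f := 106) (by decide +kernel)
    (by decide +kernel) (by decide +kernel) (by decide +kernel) (by decide +kernel)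
    (by decide +kernel) (by decide +kernel) (by decide +kernel)

end Vale.Agent.P105.Cert
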