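import Vale.Agent.P105.Cert.Base
import Vale.Agent.P105.Cert.Powers

/-!
The seed state of the iteration: the multiplier `t0 (β ^ 36 + β ^ 34 + β ^ 6 + β ^ 4)`, with a
table certifying the first `41` factors of its product of cosines.
-/

namespace Vale.Agent.P105.Cert

open Finset Real

/-- The seed multiplier. -/
noncomputable def seedT : ℝ := t0 * (salem ^ 36 + salem ^ 34 + salem ^ 6 + salem ^ 4)

/-- Its contracting coefficient. -/
noncomputable def seedTi : ℝ :=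
  -t0 * (salem⁻¹ ^ 36 + salem⁻¹ ^ 34 + salem⁻¹ ^ 6 + salem⁻¹ ^ 4)

/-- Its unimodular coefficient. -/
noncomputable def seedC : ℂ := c0 * (zee ^ 36 + zee ^ 34 + zee ^ 6 + zee ^ 4)

/-- Rows `(m, e, c, T)`: `|x - m| ≤ e/10⁵`, `|cos π x| ≥ c/10⁵`, `|tan π x| ≤ T/10⁴`. -/
def table : List (ℤ × ℕ × ℕ × ℕ) := [
  (2639950338, 2982, 99561, 941),
  (1401840178, 4768, 98880, 1510),
  (744391232, 9239, 95816, 2988),
  (395279230, 18139, 84191, 6410),
  (209897246, 33592, 49227, 17683),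
  (111457549, 37246, 38908, 23677),
  (59185079, 18956, 82777, 6779),
  (31427872, 24202, 72441, 9517),
  (16688516, 21364, 78297, 7945),
  (8861770, 6318, 98036, 2012),
  (4705689, 4552, 98979, 1441),
  (2498768, 15741, 88016, 5394),
  (1326871, 2035, 99795, 642),
  (704582, 14458, 89858, 4884),
  (374140, 5084, 98727, 1612),
  (198672, 12952, 91833, 4311),
  (105497, 10129, 94978, 3295),
  (56020, 8586, 96383, 2766),
  (29747, 13778, 90775, 4622),
  (15796, 2931, 99576, 924),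
  (8388, 14959, 89155, 5081),
  (4454, 3293, 99465, 1039),
  (2365, 13628, 90971, 4565),
  (1256, 8886, 96128, 2867),
  (667, 9856, 95243, 3200),
  (354, 13138, 91600, 4380),
  (188, 4733, 98896, 1499),
  (100, 14499, 89801, 4900),
  (53, 2402, 99715, 757),
  (28, 15629, 88182, 5348),
  (15, 4873, 98830, 1544),
  (8, 6073, 98185, 1932),
  (4, 21584, 77865, 8059),
  (2, 23866, 73165, 9318),
  (1, 18875, 82920, 6741),
  (1, 36877, 39976, 22930),
  (0, 33520, 49425, 17589),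
  (0, 17800, 84761, 6261),
  (0, 9452, 95623, 3061),
  (0, 5019, 98759, 1591),
  (0, 2666, 99649, 841)]

/-- The `n`-th row. -/
def row (n : ℕ) : ℤ × ℕ × ℕ × ℕ := table.getD n (0, 0, 0, 0)

/-- Radius in row `n`. -/
def radE (n : ℕ) : ℚ := ((row n).2.1 : ℚ) / 100000

/-- Cosine bound in row `n`. -/
def cosC (n : ℕ) : ℚ := ((row n).2.2.1 : ℚ) / 100000

/-- Tangent bound in row `n`. -/
def tanT (n : ℕ) : ℚ := ((row n).2.2.2 : ℚ) / 10000

/-- Cosine doubling. -/
def dbl (g : ℚ) : ℚ := 2 * g * g - 1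

/-- Lower bound for the cosine of an eighth of the angle. -/
def eighth (e : ℚ) : ℚ := 1 - (3141593 / 1000000 * e / 8) * (3141593 / 1000000 * e / 8) / 2

/-- Position check for row `n`. -/
def rowPos (lo hi l h : ℚ) (n : ℕ) : Prop :=
  ((row n).1 : ℚ) - radE n ≤ lo * l ^ n ∧ hi * h ^ n ≤ ((row n).1 : ℚ) + radE n

/-- Trigonometric check for row `n`. -/
def rowTrig (n : ℕ) : Prop :=
  0 ≤ eighth (radE n) ∧ 0 ≤ dbl (eighth (radE n)) ∧ 0 ≤ dbl (dbl (eighth (radE n))) ∧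
    0 < cosC n ∧ cosC n ≤ dbl (dbl (dbl (eighth (radE n)))) ∧
    1 ≤ (1 + tanT n * tanT n) * (cosC n * cosC n)

instance (lo hi l h : ℚ) (n : ℕ) : Decidable (rowPos lo hi l h n) :=
  inferInstanceAs (Decidable (_ ∧ _))

instance (n : ℕ) : Decidable (rowTrig n) :=
  inferInstanceAs (Decidable (_ ∧ _))

theorem rowPos_all : ∀ n < 41, rowPos (26399503380298196 / 10 ^ 7) (26399503380298197 / 10 ^ 7)
    (53101005645956918 / 10 ^ 17) (53101005645956919 / 10 ^ 17) n := by decide +kernel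

theorem rowTrig_all : ∀ n < 41, rowTrig n := by decide +kernel

theorem trig_bound {x : ℝ} {m : ℤ} {e c T : ℚ} (hx : |x - m| ≤ (e : ℝ)) (h0 : 0 ≤ eighth e)
    (h1 : 0 ≤ dbl (eighth e)) (h2 : 0 ≤ dbl (dbl (eighth e))) (hc : 0 < c)
    (h3 : c ≤ dbl (dbl (dbl (eighth e)))) (hT0 : 0 ≤ T) (hT : 1 ≤ (1 + T * T) * (c * c)) :
    (c : ℝ) ≤ |cos (π * x)| ∧ |tan (π * x)| ≤ (T : ℝ) := by
  rw [← abs_cos_pi_mul_sub x m, ← tan_pi_mul_sub x m]
  obtain ⟨y, hy⟩ : ∃ y, y = π * (x - m) / 8 := ⟨_, rfl⟩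
  have hpi : π * (x - m) = 2 * (2 * (2 * y)) := by rw [hy]; ring
  have hy' : |y| ≤ 3141593 / 1000000 * (e : ℝ) / 8 := by
    rw [hy, abs_div, abs_mul, abs_of_pos pi_pos, abs_of_pos (by norm_num : (0 : ℝ) < 8)]
    gcongr
    exact pi_lt_d6.le.trans (by norm_num)
  have hy2 : y * y ≤
      (3141593 / 1000000 * (e : ℝ) / 8) * (3141593 / 1000000 * (e : ℝ) / 8) := by
    rw [← abs_mul_abs_self y]
    exact mul_le_mul hy' hy' (abs_nonneg _) ((abs_nonneg _).trans hy')
  have k0 : ((eighth e : ℚ) : ℝ) ≤ cos y := by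
    have := Real.one_sub_sq_div_two_le_cos (x := y)
    simp only [eighth]
    push_cast
    nlinarith [hy2]
  have step : ∀ (g : ℚ) (u : ℝ), 0 ≤ g → (g : ℝ) ≤ cos u → ((dbl g : ℚ) : ℝ) ≤ cos (2 * u) := by
    intro g u hg hu
    have hg' : (0 : ℝ) ≤ (g : ℝ) := by exact_mod_cast hg
    rw [cos_two_mul, dbl]
    push_cast
    nlinarith [mul_le_mul hu hu hg' (hg'.trans hu)]
  have k3 := step _ _ h2 (step _ _ h1 (step _ _ h0 k0))
  have hcR : (0 : ℝ) < (c : ℝ) := by exact_mod_cast hc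
  have hcos : (c : ℝ) ≤ cos (π * (x - m)) := by
    rw [hpi]; exact le_trans (by exact_mod_cast h3) k3
  refine ⟨hcos.trans (le_abs_self _), ?_⟩
  set a := π * (x - m)
  have hTR : (1 : ℝ) ≤ (1 + (T : ℝ) * T) * ((c : ℝ) * c) := by exact_mod_cast hT
  have hT0R : (0 : ℝ) ≤ (T : ℝ) := by exact_mod_cast hT0
  have hca : 0 < cos a := hcR.trans_le hcos
  rw [tan_eq_sin_div_cos, abs_div, abs_of_pos hca, div_le_iff₀ hca]
  have hcc : (c : ℝ) * c ≤ cos a * cos a := mul_self_le_mul_self hcR.le hcos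
  have hs : sin a ^ 2 ≤ ((T : ℝ) * cos a) ^ 2 := by
    have := sin_sq_add_cos_sq a
    nlinarith [mul_le_mul_of_nonneg_left hcc (by positivity : (0 : ℝ) ≤ 1 + (T : ℝ) * T)]
  exact abs_le_of_sq_le_sq hs (by positivity)

theorem seedT_bounds : (26399503380298196 : ℝ) / 10 ^ 7 ≤ seedT ∧
    seedT ≤ 26399503380298197 / 10 ^ 7 := by
  obtain ⟨p, b1, b2⟩ := t0_bounds
  obtain ⟨s1, s2⟩ := salem_fine
  have hs : 0 ≤ salem := by linarith [one_lt_salem]
  rw [seedT]
  constructor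
  · refine le_trans ?_ (mul_le_mul b1 (add_le_add (add_le_add (add_le_add
      (pow_le_pow_left₀ (by norm_num) s1 36) (pow_le_pow_left₀ (by norm_num) s1 34))
      (pow_le_pow_left₀ (by norm_num) s1 6)) (pow_le_pow_left₀ (by norm_num) s1 4))
      (by norm_num) p.le)
    norm_num
  · refine le_trans (mul_le_mul b2 (add_le_add (add_le_add (add_le_add
      (pow_le_pow_left₀ hs s2 36) (pow_le_pow_left₀ hs s2 34))
      (pow_le_pow_left₀ hs s2 6)) (pow_le_pow_left₀ hs s2 4)) (by positivity) (by norm_num)) ?_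
    norm_num

theorem seedT_pos : 0 < seedT := lt_of_lt_of_le (by norm_num) seedT_bounds.1

theorem seed_head : ∀ n < 41,
    (cosC n : ℝ) ≤ |cos (π * (seedT * salem⁻¹ ^ n))| ∧
      |tan (π * (seedT * salem⁻¹ ^ n))| ≤ (tanT n : ℝ) := by
  intro n hn
  obtain ⟨p1, p2⟩ := rowPos_all n hn
  obtain ⟨q0, q1, q2, q3, q4, q5⟩ := rowTrig_all n hn
  refine trig_bound (m := (row n).1) ?_ q0 q1 q2 q3 q4
    (by rw [tanT]; positivity) q5
  have r1 : ((((row n).1 : ℚ) - radE n : ℚ) : ℝ) ≤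
      ((26399503380298196 / 10 ^ 7 * (53101005645956918 / 10 ^ 17) ^ n : ℚ) : ℝ) := by
    exact_mod_cast p1
  have r2 : ((26399503380298197 / 10 ^ 7 * (53101005645956919 / 10 ^ 17) ^ n : ℚ) : ℝ) ≤
      ((((row n).1 : ℚ) + radE n : ℚ) : ℝ) := by
    exact_mod_cast p2
  push_cast at r1 r2
  have hl : (0 : ℝ) ≤ salem⁻¹ := le_trans (by norm_num) lam_bounds.1
  have a1 : ((26399503380298196 : ℝ) / 10 ^ 7) * (53101005645956918 / 10 ^ 17) ^ n ≤
      seedT * salem⁻¹ ^ n :=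
    mul_le_mul seedT_bounds.1 (pow_le_pow_left₀ (by norm_num) lam_bounds.1 n) (by positivity)
      seedT_pos.le
  have a2 : seedT * salem⁻¹ ^ n ≤
      ((26399503380298197 : ℝ) / 10 ^ 7) * (53101005645956919 / 10 ^ 17) ^ n :=
    mul_le_mul seedT_bounds.2 (pow_le_pow_left₀ hl lam_bounds.2 n) (by positivity) (by positivity)
  rw [abs_le]
  constructor <;> linarith

theorem seed_at_41 : seedT * salem⁻¹ ^ 41 ≤ 14153 / 1000000 := by
  refine (mul_le_mul seedT_bounds.2 (pow_le_pow_left₀ (le_trans (by norm_num) lam_bounds.1)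
    lam_bounds.2 41) (pow_nonneg (le_trans (by norm_num) lam_bounds.1) 41) (by positivity)).trans ?_
  norm_num

theorem seed_far (k : ℕ) :
    |seedT * salem⁻¹ ^ (41 + k) - ((0 : ℤ) : ℝ)| ≤ 14153 / 1000000 * salem⁻¹ ^ k ∧
      14153 / 1000000 * salem⁻¹ ^ k ≤ (1 / 8 : ℝ) := by
  have hl : (0 : ℝ) ≤ salem⁻¹ := le_trans (by norm_num) lam_bounds.1
  have h1 : salem⁻¹ ≤ 1 := lam_bounds.2.trans (by norm_num)
  constructor
  · have h0 := seedT_pos
    rw [Int.cast_zero, sub_zero, abs_of_nonneg (by positivity), pow_add, ← mul_assoc]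
    exact mul_le_mul_of_nonneg_right seed_at_41 (pow_nonneg hl k)
  · calc 14153 / 1000000 * salem⁻¹ ^ k ≤ (14153 / 1000000 : ℝ) * 1 :=
        mul_le_mul_of_nonneg_left (pow_le_one₀ hl h1) (by norm_num)
      _ ≤ 1 / 8 := by norm_num

theorem cos_total : (156604 / 100000000 : ℚ) ≤ ∏ n ∈ range 41, cosC n := by decide +kernel

theorem tan_total : ∑ n ∈ range 41, tanT n ≤ (22286 / 1000 : ℚ) := by decide +kernel

theorem seed_prod (N : ℕ) :
    (156 : ℝ) / 100000 ≤ ∏ n ∈ range N, |cos (π * (seedT * salem⁻¹ ^ n))| := by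
  have hl : (0 : ℝ) ≤ salem⁻¹ := le_trans (by norm_num) lam_bounds.1
  have hmono : ∏ n ∈ range (41 + N), |cos (π * (seedT * salem⁻¹ ^ n))| ≤
      ∏ n ∈ range N, |cos (π * (seedT * salem⁻¹ ^ n))| := by
    rw [add_comm, prod_range_add]
    exact mul_le_of_le_one_right (prod_nonneg fun _ _ => abs_nonneg _)
      (prod_le_one (fun _ _ => abs_nonneg _) fun _ _ => abs_cos_le_one _)
  refine le_trans ?_ hmono
  rw [prod_range_add]
  have h1 : (156604 / 100000000 : ℝ) ≤ ∏ n ∈ range 41, |cos (π * (seedT * salem⁻¹ ^ n))| := by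
    refine le_trans ?_ (prod_le_prod (f := fun n => ((cosC n : ℚ) : ℝ)) (fun n _ => ?_)
      fun n hn => (seed_head n (mem_range.mp hn)).1)
    · have h := cos_total
      have : (((156604 / 100000000 : ℚ)) : ℝ) ≤ ((∏ n ∈ range 41, cosC n : ℚ) : ℝ) := by
        exact_mod_cast h
      push_cast at this
      exact this
    · rw [cosC]; positivity
  have h2 : (1 - 6 * ((14153 / 1000000) ^ 2 * (1 - salem⁻¹)⁻¹) : ℝ) ≤
      ∏ k ∈ range N, |cos (π * (seedT * salem⁻¹ ^ (41 + k)))| := by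
    refine le_trans ?_ (prod_le_prod (fun _ _ => (exp_pos _).le)
      fun k _ => exp_neg_le_abs_cos (seed_far k).1 (seed_far k).2)
    rw [← exp_sum, ← mul_sum]
    have hs : ∑ k ∈ range N, (14153 / 1000000 * salem⁻¹ ^ k : ℝ) ^ 2 ≤
        (14153 / 1000000) ^ 2 * (1 - salem⁻¹)⁻¹ := by
      refine le_trans (le_trans (sum_le_sum fun k _ => ?_) (le_of_eq (mul_sum ..).symm))
        (mul_le_mul_of_nonneg_left (geom_sum_le_inv hl (lam_bounds.2.trans_lt (by norm_num)) N)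
          (by positivity))
      rw [mul_pow]
      refine mul_le_mul_of_nonneg_left ?_ (by positivity)
      rw [sq]
      exact mul_le_of_le_one_right (by positivity)
        (pow_le_one₀ hl (lam_bounds.2.trans (by norm_num)))
    linarith [add_one_le_exp (-6 * ∑ k ∈ range N, (14153 / 1000000 * salem⁻¹ ^ k : ℝ) ^ 2)]
  refine le_trans ?_ (mul_le_mul h1 h2 ?_ (prod_nonneg fun _ _ => abs_nonneg _))
  · have : (1 - salem⁻¹)⁻¹ ≤ 22 / 10 := by
      rw [inv_le_comm₀ (by linarith [lam_bounds.2]) (by norm_num)]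
      linarith [lam_bounds.2]
    nlinarith [this]
  · have : (1 - salem⁻¹)⁻¹ ≤ 22 / 10 := by
      rw [inv_le_comm₀ (by linarith [lam_bounds.2]) (by norm_num)]
      linarith [lam_bounds.2]
    nlinarith [this]

theorem seed_tan (N : ℕ) :
    ∑ n ∈ range N, |tan (π * (seedT * salem⁻¹ ^ n))| ≤ 2245 / 100 := by
  have hl : (0 : ℝ) ≤ salem⁻¹ := le_trans (by norm_num) lam_bounds.1
  refine le_trans (sum_le_sum_of_subset_of_nonneg (t := range (41 + N))
    (range_mono (by omega)) fun _ _ _ => abs_nonneg _) ?_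
  rw [sum_range_add]
  have h1 : ∑ n ∈ range 41, |tan (π * (seedT * salem⁻¹ ^ n))| ≤ (22286 / 1000 : ℝ) := by
    refine le_trans (sum_le_sum fun n hn => (seed_head n (mem_range.mp hn)).2) ?_
    have : (((∑ n ∈ range 41, tanT n : ℚ)) : ℝ) ≤ ((22286 / 1000 : ℚ) : ℝ) := by
      exact_mod_cast tan_total
    push_cast at this
    exact this
  have h2 : ∑ k ∈ range N, |tan (π * (seedT * salem⁻¹ ^ (41 + k)))| ≤
      4 * (14153 / 1000000) * (1 - salem⁻¹)⁻¹ := by
    refine le_trans (sum_le_sum fun k _ => abs_tan_le (seed_far k).1 (seed_far k).2) ?_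
    rw [← mul_sum, ← mul_sum, mul_assoc]
    refine mul_le_mul_of_nonneg_left (mul_le_mul_of_nonneg_left ?_ (by norm_num)) (by norm_num)
    exact geom_sum_le_inv hl (lam_bounds.2.trans_lt (by norm_num)) N
  have : (1 - salem⁻¹)⁻¹ ≤ 22 / 10 := by
    rw [inv_le_comm₀ (by linarith [lam_bounds.2]) (by norm_num)]
    linarith [lam_bounds.2]
  linarith

theorem seedC_le : 2 * ‖seedC‖ ≤ 37 / 10000 := by
  have hw := zee_im_ge
  have hw0 : (0 : ℝ) < zee.im := lt_of_lt_of_le (by norm_num) hw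
  have hsum : zee ^ 36 + zee ^ 34 + zee ^ 6 + zee ^ 4 =
      zee ^ 4 * ((zee ^ 30 + ((1 : ℤ) : ℂ)) * (zee ^ 2 + 1)) := by
    push_cast; ring
  have hsq : ‖zee ^ 2 + 1‖ = √2 - 1 := by
    rw [show zee ^ 2 + 1 = ((1 - √2 : ℝ) : ℂ) * zee by linear_combination zee_quad, norm_mul,
      Complex.norm_real, zee_norm, mul_one, Real.norm_eq_abs,
      abs_of_nonpos (by nlinarith [sqrt2_bounds.1])]
    ring
  have hc : ‖c0‖ = 1 / (4 * √2 * zee.im) := by
    have : c0 = ((1 / (4 * √2 * zee.im) : ℝ) : ℂ) * Complex.I := by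
      apply Complex.ext <;>
        simp only [c0, Complex.mul_re, Complex.mul_im, Complex.ofReal_re, Complex.ofReal_im,
          Complex.I_re, Complex.I_im, mul_zero, mul_one, sub_zero, add_zero]
    rw [this, norm_mul, Complex.norm_real, Complex.norm_I, mul_one, Real.norm_eq_abs,
      abs_of_pos (by positivity)]
  rw [seedC, hsum, norm_mul, norm_mul, norm_mul, norm_pow, zee_norm, one_pow, one_mul, hc, hsq]
  have hs := sqrt2_bounds
  have h30 := zee_pow_30
  calc 2 * (1 / (4 * √2 * zee.im) * (‖zee ^ 30 + ((1 : ℤ) : ℂ)‖ * (√2 - 1)))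
      ≤ 2 * (1 / (4 * (14142135623730950488 / 10 ^ 19) * (97831 / 100000)) *
          ((((2469 : ℕ) : ℝ) / (100000 : ℕ)) * (14142135623730950489 / 10 ^ 19 - 1))) := by
        have h1 : (0 : ℝ) ≤ √2 - 1 := by linarith [hs.1, show (1 : ℝ) ≤ 14142135623730950488 / 10 ^ 19 by norm_num]
        refine mul_le_mul_of_nonneg_left (mul_le_mul ?_ (mul_le_mul h30 ?_ h1 (by positivity))
          (mul_nonneg (norm_nonneg _) h1) (by positivity)) zero_le_two
        · gcongr
          exact hs.1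
        · linarith [hs.2]
    _ ≤ 37 / 10000 := by norm_num

theorem seedTi_le : |seedTi| ≤ 1 / 32 := by
  obtain ⟨p, -, b2⟩ := t0_bounds
  have hl : (0 : ℝ) ≤ salem⁻¹ := le_trans (by norm_num) lam_bounds.1
  rw [seedTi, neg_mul, abs_neg, abs_of_nonneg (by positivity)]
  refine le_trans (mul_le_mul b2 (add_le_add (add_le_add (add_le_add
    (pow_le_pow_left₀ hl lam_bounds.2 36) (pow_le_pow_left₀ hl lam_bounds.2 34))
    (pow_le_pow_left₀ hl lam_bounds.2 6)) (pow_le_pow_left₀ hl lam_bounds.2 4))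
    (by positivity) (by norm_num)) ?_
  norm_num

theorem seed_elem (n : ℕ) : ∃ m : ℤ,
    seedT * salem ^ n + seedTi * salem⁻¹ ^ n + 2 * (seedC * zee ^ n).re = m := by
  obtain ⟨m1, h1⟩ := base_elem (n + 36)
  obtain ⟨m2, h2⟩ := base_elem (n + 34)
  obtain ⟨m3, h3⟩ := base_elem (n + 6)
  obtain ⟨m4, h4⟩ := base_elem (n + 4)
  refine ⟨m1 + m2 + m3 + m4, ?_⟩
  push_cast
  rw [← h1, ← h2, ← h3, ← h4, seedT, seedTi, seedC,
    show c0 * (zee ^ 36 + zee ^ 34 + zee ^ 6 + zee ^ 4) * zee ^ n =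
      c0 * zee ^ (n + 36) + c0 * zee ^ (n + 34) + c0 * zee ^ (n + 6) + c0 * zee ^ (n + 4) by ring,
    Complex.add_re, Complex.add_re, Complex.add_re]
  ring

theorem seed_state : State salem zee seedT seedTi seedC (37 / 10000) (1 / 32) 41 (156 / 100000)
    (2245 / 100) where
  elem := seed_elem
  hc := seedC_le
  hti := seedTi_le
  tail := by
    rw [abs_of_pos seedT_pos]
    exact seed_at_41.trans (by norm_num)
  small := by norm_num
  Cpos := by norm_num
  prod_ge := seed_prod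
  tan_le := seed_tan

theorem seed_growth : salem ^ 41 ≤ seedT ^ 2 := by
  refine le_trans (pow_le_pow_left₀ (by linarith [one_lt_salem]) salem_bounds.2 41)
    (le_trans ?_ (pow_le_pow_left₀ (by norm_num) seedT_bounds.1 2))
  norm_num

end Vale.Agent.P105.Cert
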