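import Vale.Agent.P105.Cert.Chain
import Vale.Agent.P105.Cert.Powers
import Vale.Agent.P105.Cert.Seed

/-! The certificate: the invariant is reached below the threshold. -/

namespace Vale.Agent.P105

open Cert

theorem seed_cert : SeedStmt :=
  ⟨seedT, seedTi, seedC, seed_state.mono (by norm_num) (by norm_num) (by norm_num), seed_growth⟩

theorem pow_cert : PowStmt := by
  refine ⟨?_, ?_, ?_⟩
  · have h := zee_pow_L1
    push_cast at h
    rw [← sub_eq_add_neg] at h
    exact h.trans (by norm_num)
  · have h := zee_pow_L2
    push_cast at h
    rw [← sub_eq_add_neg] at h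
    exact h.trans (by norm_num)
  · have h := zee_pow_L3
    push_cast at h
    rw [← sub_eq_add_neg] at h
    exact h.trans (by norm_num)

theorem init : InitStmt :=
  initStmt_of seed_cert pow_cert zee_norm salem_bounds.1

end Vale.Agent.P105
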